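import Vale.Agent.P246.Dis.H52.Fin
import Vale.Agent.P246.Dis.H52.Core
import Vale.Agent.P246.Dis.H52.Grp

/-!
P246: Wall's D(2) problem has a negative answer. There is a finite connected 3-dimensional complex
which satisfies the D(2) condition and is not homotopy equivalent to a finite complex of dimension
at most two. Its fundamental group is `⟨a, b, t | b² = 1, (a b)³ = b a², t b t⁻¹ = a³⟩`.
-/

open Topology Set

namespace Vale.Agent.Results.P246.WallDisproof

open Vale.Agent.P246.T Vale.Agent.P246.Dis.H52

/-- **The D(2) property fails.** -/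
theorem result :
    (∃ (X : Type) (_ : TopologicalSpace X) (_ : T2Space X) (_ : CWComplex (univ : Set X)),
      CWComplex.Finite (univ : Set X) ∧ ConnectedSpace X ∧
      (∀ m > 3, IsEmpty (RelCWComplex.cell (univ : Set X) m)) ∧
      (∀ x : X, Nonempty (FundamentalGroup X x ≃* WallGroup)) ∧ D2Condition X ∧
      ¬ HasFiniteTwoModel X) ∧
    ¬ D2Property WallGroup := by
  obtain ⟨φ⟩ := exists_equiv
  obtain ⟨X, i1, i2, i3, hf, hcon, hdim, hpi, hD2, h⟩ := not_top core
  have hpi' : ∀ x : X, Nonempty (FundamentalGroup X x ≃* WallGroup) := fun x =>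
    (hpi x).map fun e => e.trans φ
  refine ⟨⟨X, i1, i2, i3, hf, hcon, hdim, hpi', hD2, h⟩, fun hG => ?_⟩
  have := hf
  have := hcon
  obtain ⟨x⟩ : Nonempty X := inferInstance
  exact h (hG X x (hpi' x) hD2)

end Vale.Agent.Results.P246.WallDisproof
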